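import Mathlib

/-!
# The Gaussian moat problem: prime-free disks centred on lines of irrational slope
-/

namespace Vale.Agent.Results.P015.IrrationalLines

/-- Chinese remainder block: every point of the block `[u, u + K] × [v, v + K]` has both
coordinates divisible by a common prime divisor of `N`. -/
theorem block (K : ℕ) : ∃ (N u v : ℕ), 0 < N ∧ ∀ s ≤ K, ∀ t ≤ K,
    ∃ p : ℕ, p.Prime ∧ p ∣ N ∧ p ∣ (u + s) ∧ p ∣ (v + t) := by
  classical
  set q : ℕ × ℕ → ℕ := fun j => Nat.nth Nat.Prime (Nat.pair j.1 j.2) with hq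
  have hp : ∀ j, (q j).Prime := fun j => Nat.prime_nth_prime _
  have hinj : ∀ i j, i ≠ j → Nat.Coprime (q i) (q j) := by
    intro i j hij
    rw [Nat.coprime_primes (hp i) (hp j)]
    intro h
    have h1 := Nat.nth_injective Nat.infinite_setOfPred_prime h
    apply hij
    have h2 := Nat.pair_eq_pair.1 h1
    exact Prod.ext h2.1 h2.2
  set T : Finset (ℕ × ℕ) := Finset.range (K + 1) ×ˢ Finset.range (K + 1) with hT
  obtain ⟨u, hu⟩ := Nat.chineseRemainderOfFinset (fun j => (q j - 1) * j.1) q T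
    (fun i _ => (hp i).ne_zero) (fun i _ j _ hij => hinj i j hij)
  obtain ⟨v, hv⟩ := Nat.chineseRemainderOfFinset (fun j => (q j - 1) * j.2) q T
    (fun i _ => (hp i).ne_zero) (fun i _ j _ hij => hinj i j hij)
  refine ⟨∏ j ∈ T, q j, u, v, Finset.prod_pos fun j _ => (hp j).pos, fun s hs t ht => ?_⟩
  have hm : (s, t) ∈ T := by
    rw [hT, Finset.mem_product, Finset.mem_range, Finset.mem_range]
    exact ⟨by simpa using Nat.lt_succ_of_le hs, by simpa using Nat.lt_succ_of_le ht⟩
  have key : ∀ w r : ℕ, w ≡ (q (s, t) - 1) * r [MOD q (s, t)] → q (s, t) ∣ w + r := by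
    intro w r h
    rw [← Nat.modEq_zero_iff_dvd]
    have h2 : (q (s, t) - 1) * r + r = q (s, t) * r := by
      obtain ⟨k, hk⟩ := Nat.exists_eq_succ_of_ne_zero (hp (s, t)).ne_zero
      rw [hk]
      simp only [Nat.succ_eq_add_one, Nat.add_sub_cancel]
      ring
    calc w + r ≡ (q (s, t) - 1) * r + r [MOD q (s, t)] := h.add_right r
      _ = q (s, t) * r := h2
      _ ≡ 0 [MOD q (s, t)] := (Nat.modEq_zero_iff_dvd).2 (dvd_mul_right _ _)
  exact ⟨q (s, t), hp _, Finset.dvd_prod_of_mem q hm, key _ _ (hu _ hm), key _ _ (hv _ hm)⟩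

/-- A Gaussian integer divisible by a rational prime `p ≤ N` and with large real part is not
irreducible. -/
theorem not_irr {p N : ℕ} (hp : p.Prime) (hpN : p ≤ N) (z : GaussianInt)
    (h1 : (p : ℤ) ∣ z.re) (h2 : (p : ℤ) ∣ z.im) (h3 : (N : ℤ) < |z.re|) : ¬ Irreducible z := by
  intro hz
  obtain ⟨x, hx⟩ := h1
  obtain ⟨y, hy⟩ := h2
  have he : z = (p : GaussianInt) * ⟨x, y⟩ := by
    apply Zsqrtd.ext
    · simp [hx]
    · simp [hy]
  rcases hz.isUnit_or_isUnit he with h | h
  · have h4 := (Zsqrtd.norm_eq_one_iff).2 h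
    have h5 : (Zsqrtd.norm (p : GaussianInt)).natAbs = p * p := by
      rw [Zsqrtd.norm_natCast]
      exact_mod_cast Int.natAbs_natCast (p * p)
    rw [h5] at h4
    have := hp.two_le
    nlinarith
  · have h4 := (Zsqrtd.norm_eq_one_iff).2 h
    have h5 : Zsqrtd.norm (⟨x, y⟩ : GaussianInt) = x * x + y * y := by
      simp [Zsqrtd.norm_def]
    rw [h5] at h4
    have h6 : x * x + y * y = 1 := by
      have h7 : 0 ≤ x * x + y * y := add_nonneg (mul_self_nonneg x) (mul_self_nonneg y)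
      omega
    have h8 : |x| ≤ 1 := by
      rw [abs_le]
      constructor <;> nlinarith
    have h9 : |z.re| ≤ N := by
      rw [hx, abs_mul, Nat.abs_cast]
      have : (p : ℤ) * |x| ≤ p * 1 := mul_le_mul_of_nonneg_left h8 (by positivity)
      have h10 : (p : ℤ) ≤ N := by exact_mod_cast hpN
      linarith
    linarith

/-- On every line `a x + b y = c` with irrational `a / b` there are arbitrarily large disks without
Gaussian primes, arbitrarily far away from the origin. -/
theorem result (a b c : ℝ) (hab : Irrational (a / b)) (R M : ℝ) :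
    ∃ x y : ℝ, a * x + b * y = c ∧ M ≤ x ^ 2 + y ^ 2 ∧
      ∀ z : GaussianInt, ((z.re : ℝ) - x) ^ 2 + ((z.im : ℝ) - y) ^ 2 ≤ R ^ 2 →
        ¬ Irreducible z := by
  have hb : b ≠ 0 := by
    rintro rfl
    simp at hab
  obtain ⟨H, hH⟩ := exists_nat_ge (|R| + 1)
  obtain ⟨L, hL⟩ := exists_nat_ge (|M| + 1)
  obtain ⟨N, u, v, hN, hblk⟩ := block (2 * H)
  set X0 : ℕ := u + N * (N + 2 * H + L + 2) with hX0
  have hX0N : N + 2 * H + L + 2 ≤ X0 := by
    have : 1 * (N + 2 * H + L + 2) ≤ N * (N + 2 * H + L + 2) := Nat.mul_le_mul_right _ hN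
    omega
  set N2 : ℕ := 2 * X0 * N with hN2
  have hN2le : 2 * X0 ≤ N2 := Nat.le_mul_of_pos_right _ hN
  have hN2pos : (0 : ℝ) < N2 := by
    have : 0 < N2 := by omega
    exact_mod_cast this
  have hirr : Irrational ((a * N2) / (b * N2)) := by
    rwa [mul_div_mul_right _ _ hN2pos.ne']
  have hd := dense_addSubgroupClosure_pair_iff.2 hirr
  obtain ⟨g, hg, hgt⟩ := hd.exists_dist_lt (c - a * (X0 + H) - b * (v + H)) (abs_pos.2 hb)
  obtain ⟨m, n, hmn⟩ := AddSubgroup.mem_closure_pair.1 hg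
  rw [Real.dist_eq, ← hmn] at hgt
  simp only [zsmul_eq_mul] at hgt
  set x : ℝ := X0 + H + N2 * m with hx
  set y : ℝ := (c - a * x) / b with hy
  have hyb : b * y = c - a * x := by rw [hy]; field_simp
  have hyc : |y - (v + H + N2 * n)| ≤ 1 := by
    have h1 : b * (y - (v + H + N2 * n)) =
        c - a * (X0 + H) - b * (v + H) - (m * (a * N2) + n * (b * N2)) := by
      rw [mul_sub, hyb, hx]
      ring
    have h2 : |b| * |y - (v + H + N2 * n)| < |b| := by
      rw [← abs_mul, h1]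
      exact hgt
    have h3 : 0 < |b| := abs_pos.2 hb
    by_contra h4
    push Not at h4
    nlinarith
  have hX0R : (N : ℝ) + 2 * H + L + 2 ≤ X0 := by exact_mod_cast hX0N
  have hN2R : (2 : ℝ) * X0 ≤ N2 := by exact_mod_cast hN2le
  have hHnn : (0 : ℝ) ≤ H := Nat.cast_nonneg _
  have hLnn : (0 : ℝ) ≤ L := Nat.cast_nonneg _
  have hNnn : (0 : ℝ) ≤ N := Nat.cast_nonneg _
  have hxabs : (N : ℝ) + H + L + 2 ≤ |x| := by
    rcases le_or_gt 0 m with hm | hm
    · have hm' : (0 : ℝ) ≤ m := by exact_mod_cast hm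
      have : 0 ≤ (N2 : ℝ) * m := mul_nonneg hN2pos.le hm'
      refine le_trans ?_ (le_abs_self x)
      rw [hx]
      linarith
    · have hm' : (m : ℝ) ≤ -1 := by exact_mod_cast (by omega : m ≤ -1)
      have : (N2 : ℝ) * m ≤ N2 * (-1) := mul_le_mul_of_nonneg_left hm' hN2pos.le
      refine le_trans ?_ (neg_le_abs x)
      rw [hx]
      linarith
  refine ⟨x, y, by rw [hyb]; ring, ?_, ?_⟩
  · have h1 : |M| ≤ |x| := by
      have := abs_nonneg M
      linarith
    have h2 : 1 ≤ |x| := by linarith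
    have h3 : |x| ≤ |x| ^ 2 := by nlinarith
    have h4 : x ^ 2 = |x| ^ 2 := (sq_abs x).symm
    have h5 := le_abs_self M
    nlinarith [sq_nonneg y]
  · intro z hz
    have hr : |(z.re : ℝ) - x| ≤ |R| := by
      rw [← sq_le_sq]
      nlinarith [sq_nonneg ((z.im : ℝ) - y)]
    have hi : |(z.im : ℝ) - y| ≤ |R| := by
      rw [← sq_le_sq]
      nlinarith [sq_nonneg ((z.re : ℝ) - x)]
    rw [abs_le] at hr hi hyc
    -- the offsets inside the block
    have hs0 : (0 : ℤ) ≤ z.re - (X0 + N2 * m) := by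
      have : (0 : ℝ) ≤ ((z.re - (X0 + N2 * m) : ℤ) : ℝ) := by
        push_cast
        rw [hx] at hr
        linarith [hr.1]
      exact_mod_cast this
    have hs1 : z.re - (X0 + N2 * m) ≤ ((2 * H : ℕ) : ℤ) := by
      have : ((z.re - (X0 + N2 * m) : ℤ) : ℝ) ≤ ((2 * H : ℕ) : ℝ) := by
        push_cast
        rw [hx] at hr
        linarith [hr.2]
      exact_mod_cast this
    have ht0 : (0 : ℤ) ≤ z.im - (v + N2 * n) := by
      have : (0 : ℝ) ≤ ((z.im - (v + N2 * n) : ℤ) : ℝ) := by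
        push_cast
        linarith [hi.1, hyc.1]
      exact_mod_cast this
    have ht1 : z.im - (v + N2 * n) ≤ ((2 * H : ℕ) : ℤ) := by
      have : ((z.im - (v + N2 * n) : ℤ) : ℝ) ≤ ((2 * H : ℕ) : ℝ) := by
        push_cast
        linarith [hi.2, hyc.2]
      exact_mod_cast this
    obtain ⟨s, hs⟩ := Int.eq_ofNat_of_zero_le hs0
    obtain ⟨t, ht⟩ := Int.eq_ofNat_of_zero_le ht0
    rw [hs] at hs1
    rw [ht] at ht1
    obtain ⟨p, hp, hpN, hpu, hpv⟩ := hblk s (by exact_mod_cast hs1) t (by exact_mod_cast ht1)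
    have hpN' : (p : ℤ) ∣ (N : ℤ) := by exact_mod_cast hpN
    have hpu' : (p : ℤ) ∣ (u : ℤ) + s := by exact_mod_cast hpu
    have hpv' : (p : ℤ) ∣ (v : ℤ) + t := by exact_mod_cast hpv
    refine not_irr hp (Nat.le_of_dvd hN hpN) z ?_ ?_ ?_
    · have : z.re = ((u : ℤ) + s) + N * ((N + 2 * H + L + 2) + 2 * X0 * m) := by
        have h1 : z.re = s + (X0 + N2 * m) := by linarith
        rw [h1, hN2]
        push_cast
        rw [hX0]
        push_cast
        ring
      rw [this]
      exact dvd_add hpu' (dvd_mul_of_dvd_left hpN' _)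
    · have : z.im = ((v : ℤ) + t) + N * (2 * X0 * n) := by
        have h1 : z.im = t + (v + N2 * n) := by linarith
        rw [h1, hN2]
        push_cast
        ring
      rw [this]
      exact dvd_add hpv' (dvd_mul_of_dvd_left hpN' _)
    · have h1 : |x| ≤ |(z.re : ℝ)| + |R| := by
        have h2 := abs_sub_abs_le_abs_sub x (z.re : ℝ)
        have h3 : |x - (z.re : ℝ)| ≤ |R| := by
          rw [abs_le]
          constructor <;> linarith [hr.1, hr.2]
        linarith
      have h4 : (N : ℝ) < |(z.re : ℝ)| := by linarith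
      have h5 : ((N : ℤ) : ℝ) < ((|z.re| : ℤ) : ℝ) := by
        push_cast
        exact h4
      exact_mod_cast h5

end Vale.Agent.Results.P015.IrrationalLines
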