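import Mathlib

/-!
# The Gaussian moat problem: no walk stays near a line of irrational slope
-/

namespace Vale.Agent.Results.P015.IrrationalStrips

/-- Chinese remainder block: every point of the block `[u, u + K] × [v, v + K]` has both
coordinates divisible by a common prime divisor of `N`. -/
theorem block (K : ℕ) : ∃ (N u v : ℕ), 0 < N ∧ ∀ s ≤ K, ∀ t ≤ K,
    ∃ p : ℕ, p.Prime ∧ p ∣ N ∧ p ∣ (u + s) ∧ p ∣ (v + t) := by
  classical
  set q : ℕ × ℕ → ℕ := fun j => Nat.nth Nat.Prime (Nat.pair j.1 j.2) with hq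
  have hp : ∀ j, (q j).Prime := fun j => Nat.prime_nth_prime _
  have hinj : ∀ i j, i ≠ j → Nat.Coprime (q i) (q j) := by
    intro i j hij
    rw [Nat.coprime_primes (hp i) (hp j)]
    intro h
    have h1 := Nat.nth_injective Nat.infinite_setOfPred_prime h
    apply hij
    have h2 := Nat.pair_eq_pair.1 h1
    exact Prod.ext h2.1 h2.2
  set T : Finset (ℕ × ℕ) := Finset.range (K + 1) ×ˢ Finset.range (K + 1) with hT
  obtain ⟨u, hu⟩ := Nat.chineseRemainderOfFinset (fun j => (q j - 1) * j.1) q T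
    (fun i _ => (hp i).ne_zero) (fun i _ j _ hij => hinj i j hij)
  obtain ⟨v, hv⟩ := Nat.chineseRemainderOfFinset (fun j => (q j - 1) * j.2) q T
    (fun i _ => (hp i).ne_zero) (fun i _ j _ hij => hinj i j hij)
  refine ⟨∏ j ∈ T, q j, u, v, Finset.prod_pos fun j _ => (hp j).pos, fun s hs t ht => ?_⟩
  have hm : (s, t) ∈ T := by
    rw [hT, Finset.mem_product, Finset.mem_range, Finset.mem_range]
    exact ⟨by simpa using Nat.lt_succ_of_le hs, by simpa using Nat.lt_succ_of_le ht⟩
  have key : ∀ w r : ℕ, w ≡ (q (s, t) - 1) * r [MOD q (s, t)] → q (s, t) ∣ w + r := by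
    intro w r h
    rw [← Nat.modEq_zero_iff_dvd]
    have h2 : (q (s, t) - 1) * r + r = q (s, t) * r := by
      obtain ⟨k, hk⟩ := Nat.exists_eq_succ_of_ne_zero (hp (s, t)).ne_zero
      rw [hk]
      simp only [Nat.succ_eq_add_one, Nat.add_sub_cancel]
      ring
    calc w + r ≡ (q (s, t) - 1) * r + r [MOD q (s, t)] := h.add_right r
      _ = q (s, t) * r := h2
      _ ≡ 0 [MOD q (s, t)] := (Nat.modEq_zero_iff_dvd).2 (dvd_mul_right _ _)
  exact ⟨q (s, t), hp _, Finset.dvd_prod_of_mem q hm, key _ _ (hu _ hm), key _ _ (hv _ hm)⟩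

/-- A Gaussian integer divisible by a rational prime `p ≤ N` and with large real part is not
irreducible. -/
theorem not_irr {p N : ℕ} (hp : p.Prime) (hpN : p ≤ N) (z : GaussianInt)
    (h1 : (p : ℤ) ∣ z.re) (h2 : (p : ℤ) ∣ z.im) (h3 : (N : ℤ) < |z.re|) : ¬ Irreducible z := by
  intro hz
  obtain ⟨x, hx⟩ := h1
  obtain ⟨y, hy⟩ := h2
  have he : z = (p : GaussianInt) * ⟨x, y⟩ := by
    apply Zsqrtd.ext
    · simp [hx]
    · simp [hy]
  rcases hz.isUnit_or_isUnit he with h | h
  · have h4 := (Zsqrtd.norm_eq_one_iff).2 h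
    have h5 : (Zsqrtd.norm (p : GaussianInt)).natAbs = p * p := by
      rw [Zsqrtd.norm_natCast]
      exact_mod_cast Int.natAbs_natCast (p * p)
    rw [h5] at h4
    have := hp.two_le
    nlinarith
  · have h4 := (Zsqrtd.norm_eq_one_iff).2 h
    have h5 : Zsqrtd.norm (⟨x, y⟩ : GaussianInt) = x * x + y * y := by
      simp [Zsqrtd.norm_def]
    rw [h5] at h4
    have h6 : x * x + y * y = 1 := by
      have h7 : 0 ≤ x * x + y * y := add_nonneg (mul_self_nonneg x) (mul_self_nonneg y)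
      omega
    have h8 : |x| ≤ 1 := by
      rw [abs_le]
      constructor <;> nlinarith
    have h9 : |z.re| ≤ N := by
      rw [hx, abs_mul, Nat.abs_cast]
      have : (p : ℤ) * |x| ≤ p * 1 := mul_le_mul_of_nonneg_left h8 (by positivity)
      have h10 : (p : ℤ) ≤ N := by exact_mod_cast hpN
      linarith
    linarith

theorem approx (a b : ℝ) (hab : Irrational (a / b)) (t δ : ℝ) (hδ : 0 < δ) (L : ℕ) (e : ℤ)
    (he : e = 1 ∨ e = -1) : ∃ m n : ℤ, |t - (m * a + n * b)| < δ ∧ (L : ℤ) ≤ e * m := by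
  obtain ⟨g, hg, hgt⟩ := (dense_addSubgroupClosure_pair_iff.2 hab).exists_dist_lt t (half_pos hδ)
  obtain ⟨m0, n0, h0⟩ := AddSubgroup.mem_closure_pair.1 hg
  rw [Real.dist_eq, ← h0] at hgt
  simp only [zsmul_eq_mul] at hgt
  set q : ℕ := m0.natAbs + L + 1 with hq
  have hq0 : ((2 * q : ℕ)) ≠ 0 := by omega
  have hirr : Irrational ((a * (2 * q : ℕ)) / b) := by
    have : (a * (2 * q : ℕ)) / b = (a / b) * (2 * q : ℕ) := by ring
    rw [this]
    exact hab.mul_natCast hq0
  obtain ⟨g1, hg1, hgt1⟩ := (dense_addSubgroupClosure_pair_iff.2 hirr).exists_dist_lt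
    (-(a * q)) (half_pos hδ)
  obtain ⟨m1, n1, h1⟩ := AddSubgroup.mem_closure_pair.1 hg1
  rw [Real.dist_eq, ← h1] at hgt1
  simp only [zsmul_eq_mul] at hgt1
  set P : ℤ := q + 2 * q * m1 with hP
  have hPa : |(P : ℝ) * a + n1 * b| < δ / 2 := by
    have : (P : ℝ) * a + n1 * b = -(-(a * q) - (m1 * (a * (2 * q : ℕ)) + n1 * b)) := by
      rw [hP]
      push_cast
      ring
    rw [this, abs_neg]
    exact hgt1
  have hPq : (q : ℤ) ≤ |P| := by
    have h2 : P = q * (2 * m1 + 1) := by rw [hP]; ring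
    have h3 : 1 ≤ |2 * m1 + 1| := Int.one_le_abs (by omega)
    rw [h2, abs_mul, Nat.abs_cast]
    nlinarith [Int.natCast_nonneg q]
  have hm0 : |m0| = (m0.natAbs : ℤ) := Int.abs_eq_natAbs m0
  have hqZ : (q : ℤ) = m0.natAbs + L + 1 := by rw [hq]; push_cast; ring
  have key : ∀ σ : ℤ, (σ = 1 ∨ σ = -1) → e * (σ * P) = |P| → ∃ m n : ℤ,
      |t - (m * a + n * b)| < δ ∧ (L : ℤ) ≤ e * m := by
    intro σ hσ h2
    refine ⟨m0 + σ * P, n0 + σ * n1, ?_, ?_⟩
    · have h3 : t - (((m0 + σ * P : ℤ) : ℝ) * a + ((n0 + σ * n1 : ℤ) : ℝ) * b) =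
          (t - (m0 * a + n0 * b)) + -(σ * (P * a + n1 * b)) := by
        push_cast
        ring
      have h4 : |-((σ : ℝ) * (P * a + n1 * b))| < δ / 2 := by
        rw [abs_neg, abs_mul]
        rcases hσ with h | h <;> rw [h] <;> simpa using hPa
      rw [h3]
      refine (abs_add_le _ _).trans_lt ?_
      linarith
    · have h5 : e * (m0 + σ * P) = e * m0 + |P| := by rw [← h2]; ring
      rw [h5]
      have h6 : -|m0| ≤ e * m0 := by
        rcases he with h | h <;> rw [h]
        · have := neg_abs_le m0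
          linarith
        · have := le_abs_self m0
          linarith
      linarith
  rcases he with h | h <;> rcases le_total 0 P with hp | hp
  · exact key 1 (Or.inl rfl) (by rw [h, abs_of_nonneg hp]; ring)
  · exact key (-1) (Or.inr rfl) (by rw [h, abs_of_nonpos hp]; ring)
  · exact key (-1) (Or.inr rfl) (by rw [h, abs_of_nonneg hp]; ring)
  · exact key 1 (Or.inl rfl) (by rw [h, abs_of_nonpos hp]; ring)

theorem wall (a b c : ℝ) (hab : Irrational (a / b)) (R M : ℝ) (e : ℤ) (he : e = 1 ∨ e = -1) :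
    ∃ x y : ℝ, a * x + b * y = c ∧ M ≤ e * x ∧
      ∀ z : GaussianInt, ((z.re : ℝ) - x) ^ 2 + ((z.im : ℝ) - y) ^ 2 ≤ R ^ 2 →
        ¬ Irreducible z := by
  have hb : b ≠ 0 := by
    rintro rfl
    simp at hab
  obtain ⟨H, hH⟩ := exists_nat_ge (|R| + 1)
  obtain ⟨L0, hL0⟩ := exists_nat_ge (|M|)
  obtain ⟨N, u, v, hN, hblk⟩ := block (2 * H)
  have hN2pos : (0 : ℝ) < N := by exact_mod_cast hN
  have hN1 : (1 : ℝ) ≤ N := by exact_mod_cast hN
  have hirr : Irrational ((a * N) / (b * N)) := by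
    rwa [mul_div_mul_right _ _ hN2pos.ne']
  obtain ⟨m, n, hgt, hm⟩ := approx (a * N) (b * N) hirr (c - a * (u + H) - b * (v + H)) |b|
    (abs_pos.2 hb) (u + N + 2 * H + L0 + 1) e he
  have hmR : (u : ℝ) + N + 2 * H + L0 + 1 ≤ e * m := by exact_mod_cast hm
  have hHnn : (0 : ℝ) ≤ H := Nat.cast_nonneg _
  have hunn : (0 : ℝ) ≤ u := Nat.cast_nonneg _
  have hLnn : (0 : ℝ) ≤ L0 := Nat.cast_nonneg _
  set x : ℝ := u + H + N * m with hx
  set y : ℝ := (c - a * x) / b with hy
  have hyb : b * y = c - a * x := by rw [hy]; field_simp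
  have hyc : |y - (v + H + N * n)| ≤ 1 := by
    have h1 : b * (y - (v + H + N * n)) =
        c - a * (u + H) - b * (v + H) - (m * (a * N) + n * (b * N)) := by
      rw [mul_sub, hyb, hx]
      ring
    have h2 : |b| * |y - (v + H + N * n)| < |b| := by
      rw [← abs_mul, h1]
      exact hgt
    have h3 : 0 < |b| := abs_pos.2 hb
    by_contra h4
    push Not at h4
    nlinarith
  have hex : (N : ℝ) + H + L0 + 1 ≤ e * x := by
    have h1 : (e : ℝ) * m ≤ N * (e * m) := by nlinarith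
    have h2 : -((u : ℝ) + H) ≤ e * (u + H) := by
      rcases he with h | h <;> rw [h] <;> push_cast <;> linarith
    have h3 : (e : ℝ) * x = e * (u + H) + N * (e * m) := by rw [hx]; ring
    rw [h3]
    linarith
  have hxabs : (N : ℝ) + H + L0 + 1 ≤ |x| := by
    refine hex.trans ?_
    rcases he with h | h <;> rw [h] <;> push_cast
    · have := le_abs_self x
      linarith
    · have := neg_abs_le x
      linarith
  refine ⟨x, y, by rw [hyb]; ring, ?_, ?_⟩
  · have := le_abs_self M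
    linarith
  · intro z hz
    have hr : |(z.re : ℝ) - x| ≤ |R| := by
      rw [← sq_le_sq]
      nlinarith [sq_nonneg ((z.im : ℝ) - y)]
    have hi : |(z.im : ℝ) - y| ≤ |R| := by
      rw [← sq_le_sq]
      nlinarith [sq_nonneg ((z.re : ℝ) - x)]
    rw [abs_le] at hr hi hyc
    have hs0 : (0 : ℤ) ≤ z.re - (u + N * m) := by
      have : (0 : ℝ) ≤ ((z.re - (u + N * m) : ℤ) : ℝ) := by
        push_cast
        rw [hx] at hr
        linarith [hr.1]
      exact_mod_cast this
    have hs1 : z.re - (u + N * m) ≤ ((2 * H : ℕ) : ℤ) := by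
      have : ((z.re - (u + N * m) : ℤ) : ℝ) ≤ ((2 * H : ℕ) : ℝ) := by
        push_cast
        rw [hx] at hr
        linarith [hr.2]
      exact_mod_cast this
    have ht0 : (0 : ℤ) ≤ z.im - (v + N * n) := by
      have : (0 : ℝ) ≤ ((z.im - (v + N * n) : ℤ) : ℝ) := by
        push_cast
        linarith [hi.1, hyc.1]
      exact_mod_cast this
    have ht1 : z.im - (v + N * n) ≤ ((2 * H : ℕ) : ℤ) := by
      have : ((z.im - (v + N * n) : ℤ) : ℝ) ≤ ((2 * H : ℕ) : ℝ) := by
        push_cast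
        linarith [hi.2, hyc.2]
      exact_mod_cast this
    obtain ⟨s, hs⟩ := Int.eq_ofNat_of_zero_le hs0
    obtain ⟨t, ht⟩ := Int.eq_ofNat_of_zero_le ht0
    rw [hs] at hs1
    rw [ht] at ht1
    obtain ⟨p, hp, hpN, hpu, hpv⟩ := hblk s (by exact_mod_cast hs1) t (by exact_mod_cast ht1)
    have hpN' : (p : ℤ) ∣ (N : ℤ) := by exact_mod_cast hpN
    have hpu' : (p : ℤ) ∣ (u : ℤ) + s := by exact_mod_cast hpu
    have hpv' : (p : ℤ) ∣ (v : ℤ) + t := by exact_mod_cast hpv
    refine not_irr hp (Nat.le_of_dvd hN hpN) z ?_ ?_ ?_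
    · have : z.re = ((u : ℤ) + s) + N * m := by linarith
      rw [this]
      exact dvd_add hpu' (dvd_mul_of_dvd_left hpN' _)
    · have : z.im = ((v : ℤ) + t) + N * n := by linarith
      rw [this]
      exact dvd_add hpv' (dvd_mul_of_dvd_left hpN' _)
    · have h1 : |x| ≤ |(z.re : ℝ)| + |R| := by
        have h2 := abs_sub_abs_le_abs_sub x (z.re : ℝ)
        have h3 : |x - (z.re : ℝ)| ≤ |R| := by
          rw [abs_le]
          constructor <;> linarith [hr.1, hr.2]
        linarith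
      have h4 : (N : ℝ) < |(z.re : ℝ)| := by linarith
      have h5 : ((N : ℤ) : ℝ) < ((|z.re| : ℤ) : ℝ) := by
        push_cast
        exact h4
      exact_mod_cast h5

/-- No infinite sequence of distinct Gaussian primes with steps at most `D` stays in a strip
around a line of irrational slope. -/
theorem result (a b c : ℝ) (hab : Irrational (a / b)) (W D : ℝ) (z : ℕ → GaussianInt)
    (hinj : Function.Injective z) (hprime : ∀ k, Irreducible (z k))
    (hstep : ∀ k, (((z (k + 1)).re : ℝ) - (z k).re) ^ 2 + (((z (k + 1)).im : ℝ) - (z k).im) ^ 2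
      ≤ D ^ 2) :
    ∃ k, W < |a * (z k).re + b * (z k).im - c| := by
  by_contra hcon
  push Not at hcon
  have hb : b ≠ 0 := by
    rintro rfl
    simp at hab
  have hb' : 0 < |b| := abs_pos.2 hb
  set E : ℝ := (W + |a| * |D|) / |b| with hE
  set R : ℝ := |D| + |E| with hR
  have hbar : ∀ x y : ℝ, a * x + b * y = c → (∀ w : GaussianInt,
      ((w.re : ℝ) - x) ^ 2 + ((w.im : ℝ) - y) ^ 2 ≤ R ^ 2 → ¬ Irreducible w) →
      ∀ k, |D| < |((z k).re : ℝ) - x| := by
    intro x y hxy hfree k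
    by_contra h
    push Not at h
    refine hfree (z k) ?_ (hprime k)
    have h1 : |((z k).im : ℝ) - y| ≤ E := by
      rw [hE, le_div_iff₀ hb', ← abs_mul]
      have h2 : (((z k).im : ℝ) - y) * b = (a * (z k).re + b * (z k).im - c) -
          a * ((z k).re - x) := by
        rw [← hxy]
        ring
      rw [h2]
      refine (abs_sub _ _).trans (add_le_add (hcon k) ?_)
      rw [abs_mul]
      exact mul_le_mul_of_nonneg_left h (abs_nonneg _)
    have h3 : |((z k).im : ℝ) - y| ≤ |E| := h1.trans (le_abs_self E)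
    have h4 : (((z k).re : ℝ) - x) ^ 2 ≤ |D| ^ 2 := by
      rw [← sq_abs (((z k).re : ℝ) - x)]
      exact pow_le_pow_left₀ (abs_nonneg _) h 2
    have h5 : (((z k).im : ℝ) - y) ^ 2 ≤ |E| ^ 2 := by
      rw [← sq_abs (((z k).im : ℝ) - y)]
      exact pow_le_pow_left₀ (abs_nonneg _) h3 2
    rw [hR]
    nlinarith [mul_nonneg (abs_nonneg D) (abs_nonneg E)]
  obtain ⟨x1, y1, e1, g1, f1⟩ := wall a b c hab R (|((z 0).re : ℝ)| + 1) 1 (Or.inl rfl)
  obtain ⟨x2, y2, e2, g2, f2⟩ := wall a b c hab R (|((z 0).re : ℝ)| + 1) (-1) (Or.inr rfl)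
  have b1 := hbar x1 y1 e1 f1
  have b2 := hbar x2 y2 e2 f2
  push_cast at g1 g2
  have hdx : ∀ k, |((z (k + 1)).re : ℝ) - (z k).re| ≤ |D| := by
    intro k
    rw [← sq_le_sq]
    nlinarith [hstep k, sq_nonneg (((z (k + 1)).im : ℝ) - (z k).im)]
  have hin : ∀ k, x2 < (z k).re ∧ ((z k).re : ℝ) < x1 := by
    intro k
    induction k with
    | zero =>
      have h1 := le_abs_self ((z 0).re : ℝ)
      have h2 := neg_abs_le ((z 0).re : ℝ)
      constructor <;> linarith
    | succ k ih =>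
      have h1 := abs_le.1 (hdx k)
      have h2 := b1 k
      have h3 := b2 k
      have h0 := abs_nonneg D
      have h2' : |((z k).re : ℝ) - x1| = -(((z k).re : ℝ) - x1) := abs_of_neg (by linarith [ih.2])
      have h3' : |((z k).re : ℝ) - x2| = ((z k).re : ℝ) - x2 := abs_of_pos (by linarith [ih.1])
      rw [h2'] at h2
      rw [h3'] at h3
      constructor <;> linarith [h1.1, h1.2]
  have hfin : (Set.range z).Finite := by
    obtain ⟨A, hA⟩ := exists_nat_ge (|x1| + |x2|)
    obtain ⟨B, hB⟩ := exists_nat_ge ((W + |c| + |a| * A) / |b|)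
    have : Set.range z ⊆ (fun q : ℤ × ℤ => (⟨q.1, q.2⟩ : GaussianInt)) ''
        (Set.Icc (-(A : ℤ)) A ×ˢ Set.Icc (-(B : ℤ)) B) := by
      rintro _ ⟨k, rfl⟩
      have hre : |((z k).re : ℝ)| ≤ A := by
        have h1 := hin k
        have h2 := le_abs_self x1
        have h3 := neg_abs_le x2
        have h4 := abs_nonneg x1
        have h5 := abs_nonneg x2
        rw [abs_le]
        constructor <;> linarith [h1.1, h1.2]
      have him : |((z k).im : ℝ)| ≤ B := by
        refine le_trans ?_ hB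
        rw [le_div_iff₀ hb', ← abs_mul]
        have h2 : ((z k).im : ℝ) * b = (a * (z k).re + b * (z k).im - c) + c -
          a * (z k).re := by ring
        rw [h2]
        refine (abs_sub _ _).trans (add_le_add ((abs_add_le _ _).trans
          (add_le_add (hcon k) le_rfl)) ?_)
        rw [abs_mul]
        exact mul_le_mul_of_nonneg_left hre (abs_nonneg _)
      refine ⟨((z k).re, (z k).im), ⟨?_, ?_⟩, rfl⟩
      · have h1 : |(z k).re| ≤ (A : ℤ) := by exact_mod_cast hre
        exact ⟨(abs_le.1 h1).1, (abs_le.1 h1).2⟩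
      · have h1 : |(z k).im| ≤ (B : ℤ) := by exact_mod_cast him
        exact ⟨(abs_le.1 h1).1, (abs_le.1 h1).2⟩
    exact (((Set.finite_Icc _ _).prod (Set.finite_Icc _ _)).image _).subset this
  exact Set.infinite_range_of_injective hinj hfin

end Vale.Agent.Results.P015.IrrationalStrips
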